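import Vale.Agent.P042.Blocks

namespace Vale.Agent.Results.P042.SquareDiffFree

/-- Sets in `[1, N]` without square differences of size at least `C * N ^ (121 / 160)`. -/
theorem result : ∃ C : ℝ, 0 < C ∧ ∀ N : ℕ, 1 ≤ N → ∃ A : Finset ℕ, A ⊆ Finset.Icc 1 N ∧
    (∀ x ∈ A, ∀ y ∈ A, ∀ n : ℕ, 1 ≤ n → x + n ^ 2 ≠ y) ∧
    C * (N : ℝ) ^ ((121 : ℝ) / 160) ≤ (A.card : ℝ) := by
  have h := Vale.Agent.P042.family.exponent (a := 121) (b := 160) (by norm_num) (by norm_num)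
    Vale.Agent.P042.two_le_base Vale.Agent.P042.exponent_bound
  simpa using h

end Vale.Agent.Results.P042.SquareDiffFree
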